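import Mathlib.MeasureTheory.Measure.Lebesgue.VolumeOfBalls
import Mathlib.Topology.MetricSpace.HausdorffDistance
import Mathlib.Tactic

/-!
# Lipschitz extension from finite subsets of `ℝ^d` into Banach spaces
-/

open MeasureTheory Metric Set

namespace Vale.Agent.P235.H929

universe u

/-- Voronoi cell of `c i`, ties broken by the index. -/
def cell {d n : ℕ} (c : Fin n → (Fin d → ℝ)) (i : Fin n) : Set (Fin d → ℝ) :=
  {z | (∀ j, dist z (c i) ≤ dist z (c j)) ∧ ∀ j, j < i → dist z (c i) < dist z (c j)}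

theorem measurableSet_cell {d n : ℕ} (c : Fin n → (Fin d → ℝ)) (i : Fin n) :
    MeasurableSet (cell c i) := by
  have h1 : ∀ j, MeasurableSet {z : Fin d → ℝ | dist z (c i) ≤ dist z (c j)} := fun j =>
    (isClosed_le (continuous_id.dist continuous_const)
      (continuous_id.dist continuous_const)).measurableSet
  have h2 : ∀ j, MeasurableSet {z : Fin d → ℝ | dist z (c i) < dist z (c j)} := fun j =>
    (isOpen_lt (continuous_id.dist continuous_const)
      (continuous_id.dist continuous_const)).measurableSet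
  have h3 : cell c i = (⋂ j, {z : Fin d → ℝ | dist z (c i) ≤ dist z (c j)}) ∩
      (⋂ j, ⋂ (_ : j < i), {z : Fin d → ℝ | dist z (c i) < dist z (c j)}) := by
    ext z
    simp [cell]
  rw [h3]
  exact (MeasurableSet.iInter h1).inter
    (MeasurableSet.iInter fun j => MeasurableSet.iInter fun _ => h2 j)

theorem cell_disjoint {d n : ℕ} (c : Fin n → (Fin d → ℝ)) {i j : Fin n} (hij : i ≠ j) :
    Disjoint (cell c i) (cell c j) := by
  rw [Set.disjoint_left]
  intro z hi hj
  rcases lt_or_gt_of_ne hij with h | h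
  · exact absurd (hi.1 j) (not_le.mpr (hj.2 i h))
  · exact absurd (hj.1 i) (not_le.mpr (hi.2 j h))

theorem iUnion_cell {d n : ℕ} (c : Fin n → (Fin d → ℝ)) (hn : 0 < n) :
    (⋃ i, cell c i) = Set.univ := by
  classical
  have : Nonempty (Fin n) := ⟨⟨0, hn⟩⟩
  ext z
  simp only [mem_iUnion, mem_univ, iff_true]
  -- the set of minimisers
  obtain ⟨i0, hi0⟩ := Finite.exists_min (fun i => dist z (c i))
  let T : Finset (Fin n) := Finset.univ.filter fun i => ∀ j, dist z (c i) ≤ dist z (c j)
  have hT : T.Nonempty := ⟨i0, by simp [T, hi0]⟩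
  refine ⟨T.min' hT, ?_, ?_⟩
  · have := T.min'_mem hT
    simpa [T] using this
  · intro j hj
    by_contra hcon
    push Not at hcon
    have hmem := T.min'_mem hT
    have hm : ∀ k, dist z (c (T.min' hT)) ≤ dist z (c k) := by simpa [T] using hmem
    have hjT : j ∈ T := by
      simp only [T, Finset.mem_filter, Finset.mem_univ, true_and]
      intro k
      exact hcon.trans (hm k)
    exact absurd (T.min'_le j hjT) (not_le.mpr hj)

/-- finite additivity over the cells -/
theorem sum_real_cell {d n : ℕ} (c : Fin n → (Fin d → ℝ)) (hn : 0 < n)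
    (Q : Set (Fin d → ℝ)) (hQ : MeasurableSet Q) (hfin : volume Q ≠ ⊤) :
    ∑ i, (volume (Q ∩ cell c i)).toReal = (volume Q).toReal := by
  have h1 : Q = ⋃ i ∈ (Finset.univ : Finset (Fin n)), (Q ∩ cell c i) := by
    have := iUnion_cell c hn
    ext z
    simp only [Finset.mem_univ, iUnion_true, mem_iUnion, mem_inter_iff]
    constructor
    · intro hz
      have hz2 : z ∈ ⋃ i, cell c i := by rw [this]; trivial
      obtain ⟨i, hi⟩ := mem_iUnion.mp hz2
      exact ⟨i, hz, hi⟩
    · rintro ⟨i, hz, -⟩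
      exact hz
  have h2 : volume Q = ∑ i, volume (Q ∩ cell c i) := by
    conv_lhs => rw [h1]
    rw [measure_biUnion_finset]
    · intro i _ j _ hij
      exact ((cell_disjoint c hij).mono inter_subset_right inter_subset_right)
    · intro i _
      exact hQ.inter (measurableSet_cell c i)
  rw [h2, ENNReal.toReal_sum]
  intro i _
  exact ne_top_of_le_ne_top hfin (measure_mono inter_subset_left)

theorem vol_closedBall_real {d : ℕ} (x : Fin d → ℝ) {r : ℝ} (hr : 0 ≤ r) :
    (volume (closedBall x r)).toReal = (2 * r) ^ d := by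
  rw [Real.volume_pi_closedBall x hr]
  rw [ENNReal.toReal_ofReal (by positivity)]
  simp

theorem bern_x (d : ℕ) {r δ : ℝ} (hr : 0 < r) (hd : δ ≤ r / 2) :
    (2 * r) ^ d - (2 * (r - 3 / 2 * δ)) ^ d ≤ (2 * r) ^ d * (d * (3 / 2 * (δ / r))) := by
  have hV0 : 0 < (2 * r) ^ d := by positivity
  have h1 : (2 * (r - 3 / 2 * δ)) ^ d = (2 * r) ^ d * (1 + (-(3 / 2 * δ / r))) ^ d := by
    rw [← mul_pow]
    congr 1
    field_simp
    ring
  have h2 : (-2 : ℝ) ≤ -(3 / 2 * δ / r) := by
    have : 3 / 2 * δ / r ≤ 1 := by rw [div_le_one hr]; linarith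
    linarith
  have h3 := mul_le_mul_of_nonneg_left (one_add_mul_le_pow h2 d) hV0.le
  rw [h1]
  have h4 : (2 * r) ^ d * (1 + d * (-(3 / 2 * δ / r))) =
      (2 * r) ^ d - (2 * r) ^ d * (d * (3 / 2 * (δ / r))) := by ring
  rw [h4] at h3
  linarith

theorem bern_y (d : ℕ) {s δ ρ : ℝ} (hs : 0 < s) (hρ0 : 0 < ρ)
    (hρ : s - 2 * δ ≤ ρ) :
    (2 * s) ^ d - (2 * ρ) ^ d ≤ (2 * s) ^ d * (d * (2 * δ / s)) := by
  have hV0 : 0 < (2 * s) ^ d := by positivity
  have hdn : (0 : ℝ) ≤ d := Nat.cast_nonneg d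
  by_cases hpos : 0 ≤ s - 2 * δ
  · have h1 : (2 * (s - 2 * δ)) ^ d = (2 * s) ^ d * (1 + (-(2 * δ / s))) ^ d := by
      rw [← mul_pow]
      congr 1
      field_simp
      ring
    have h2 : (-2 : ℝ) ≤ -(2 * δ / s) := by
      have : 2 * δ / s ≤ 1 := by rw [div_le_one hs]; linarith
      linarith
    have h3 := mul_le_mul_of_nonneg_left (one_add_mul_le_pow h2 d) hV0.le
    have h4 : (2 * (s - 2 * δ)) ^ d ≤ (2 * ρ) ^ d := by
      apply pow_le_pow_left₀ (by linarith)
      linarith
    have h5 : (2 * s) ^ d * (1 + d * (-(2 * δ / s))) =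
        (2 * s) ^ d - (2 * s) ^ d * (d * (2 * δ / s)) := by ring
    rw [h5, ← h1] at h3
    linarith
  · push Not at hpos
    rcases Nat.eq_zero_or_pos d with hd0 | hd0
    · subst hd0
      simp
    · have h6 : (1 : ℝ) ≤ d := by exact_mod_cast hd0
      have h7 : (1 : ℝ) ≤ 2 * δ / s := by rw [le_div_iff₀ hs]; linarith
      have h8 : (1 : ℝ) ≤ d * (2 * δ / s) := by
        calc (1 : ℝ) = 1 * 1 := by ring
          _ ≤ d * (2 * δ / s) := mul_le_mul h6 h7 (by norm_num) hdn
      have h9 : 0 ≤ (2 * ρ) ^ d := by positivity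
      have h10 : (2 * s) ^ d * 1 ≤ (2 * s) ^ d * (d * (2 * δ / s)) :=
        mul_le_mul_of_nonneg_left h8 hV0.le
      linarith

theorem final_real (d : ℕ) {r s δ Sab : ℝ} (hr : 0 < r) (hs : 0 < s) (hδ0 : 0 ≤ δ)
    (hd : δ ≤ r / 2) (hsr : r - δ / 2 ≤ s) (hsr2 : s ≤ r + δ / 2)
    (hsum : Sab ≤ ((2 * r) ^ d - (2 * (r - 3 / 2 * δ)) ^ d)
      + ((2 * s) ^ d - (2 * (r - 3 / 2 * δ)) ^ d)) :
    2 * Sab / (2 * r) ^ d ≤ (9 * d * 2 ^ d) * (δ / r) := by
  have hVx0 : 0 < (2 * r) ^ d := by positivity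
  have hVy0 : 0 < (2 * s) ^ d := by positivity
  have hbx := bern_x d hr hd
  have hby := bern_y d (s := s) (δ := δ) (ρ := r - 3 / 2 * δ) hs (by linarith) (by linarith)
  have hs34 : 3 / 4 * r ≤ s := by linarith
  have hVyx : (2 * s) ^ d ≤ (2 * r) ^ d * 2 ^ d := by
    rw [← mul_pow]
    apply pow_le_pow_left₀ (by positivity)
    linarith
  have h12 : (1 : ℝ) ≤ 2 ^ d := one_le_pow₀ (by norm_num)
  have hδr : 0 ≤ δ / r := by positivity
  have hds : 2 * δ / s ≤ 8 / 3 * (δ / r) := by
    rw [div_le_iff₀ hs]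
    have e : 8 / 3 * (δ / r) * s = (8 / 3 * δ) * (s / r) := by ring
    rw [e]
    have hsr3 : 3 / 4 ≤ s / r := by rw [le_div_iff₀ hr]; exact hs34
    have := mul_le_mul_of_nonneg_left hsr3 (by positivity : (0 : ℝ) ≤ 8 / 3 * δ)
    linarith
  have hdn : (0 : ℝ) ≤ d := Nat.cast_nonneg d
  have hq'0 : 0 ≤ 2 * δ / s := by positivity
  rw [div_le_iff₀ hVx0]
  generalize (2 * r) ^ d = Vx at *
  generalize (2 * s) ^ d = Vy at *
  generalize (2 * (r - 3 / 2 * δ)) ^ d = Vr at *
  generalize ((2 : ℝ) ^ d) = W at *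
  generalize (d : ℝ) = D at *
  generalize δ / r = q at *
  generalize 2 * δ / s = q' at *
  have e1 : Vy * (D * q') ≤ (Vx * W) * (D * (8 / 3 * q)) := by
    apply mul_le_mul hVyx (mul_le_mul_of_nonneg_left hds hdn)
    · exact mul_nonneg hdn hq'0
    · positivity
  have e2 : Vx * (D * (3 / 2 * q)) ≤ (Vx * W) * (D * (3 / 2 * q)) := by
    apply mul_le_mul_of_nonneg_right _ (by positivity)
    have := mul_le_mul_of_nonneg_left h12 hVx0.le
    linarith
  have e5 : 0 ≤ (2 / 3) * (Vx * W * D * q) := by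
    have : 0 ≤ W := by linarith
    positivity
  have e4 : (9 * D * W) * q * Vx -
      2 * ((Vx * W) * (D * (3 / 2 * q)) + (Vx * W) * (D * (8 / 3 * q)))
      = (2 / 3) * (Vx * W * D * q) := by ring
  linarith

/-- total variation estimate -/
theorem tv_bound {d n : ℕ} (c : Fin n → (Fin d → ℝ)) (hn : 0 < n)
    (x y : Fin d → ℝ) (r s : ℝ) (hr : 0 < r) (hs : 0 < s)
    (hrs : |r - s| ≤ dist x y / 2) (hd : dist x y ≤ r / 2) :
    ∑ i, |(volume (closedBall x r ∩ cell c i)).toReal / (2 * r) ^ d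
        - (volume (closedBall y s ∩ cell c i)).toReal / (2 * s) ^ d|
      ≤ (9 * d * 2 ^ d) * (dist x y / r) := by
  set δ := dist x y with hδ
  have hδ0 : 0 ≤ δ := dist_nonneg
  set Vx : ℝ := (2 * r) ^ d with hVx
  set Vy : ℝ := (2 * s) ^ d with hVy
  have hVx0 : 0 < Vx := by positivity
  have hVy0 : 0 < Vy := by positivity
  set a : Fin n → ℝ := fun i => (volume (closedBall x r ∩ cell c i)).toReal with ha
  set b : Fin n → ℝ := fun i => (volume (closedBall y s ∩ cell c i)).toReal with hb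
  set m : Fin n → ℝ := fun i =>
    (volume ((closedBall x r ∩ closedBall y s) ∩ cell c i)).toReal with hm
  have hfx : volume (closedBall x r) ≠ ⊤ := measure_closedBall_lt_top.ne
  have hfy : volume (closedBall y s) ≠ ⊤ := measure_closedBall_lt_top.ne
  have hsa : ∑ i, a i = Vx := by
    rw [hVx, ← vol_closedBall_real x hr.le]
    exact sum_real_cell c hn _ measurableSet_closedBall hfx
  have hsb : ∑ i, b i = Vy := by
    rw [hVy, ← vol_closedBall_real y hs.le]
    exact sum_real_cell c hn _ measurableSet_closedBall hfy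
  have hfm : volume (closedBall x r ∩ closedBall y s) ≠ ⊤ :=
    ne_top_of_le_ne_top hfx (measure_mono inter_subset_left)
  have hsm : ∑ i, m i = (volume (closedBall x r ∩ closedBall y s)).toReal :=
    sum_real_cell c hn _ (measurableSet_closedBall.inter measurableSet_closedBall) hfm
  -- lower bound of the intersection
  set ρ : ℝ := r - 3 / 2 * δ with hρ
  have hρ0 : 0 < ρ := by rw [hρ]; linarith
  have hsr : r - δ / 2 ≤ s := by have := (abs_le.mp hrs).2; linarith
  have hsr2 : s ≤ r + δ / 2 := by have := (abs_le.mp hrs).1; linarith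
  have hsub : closedBall x ρ ⊆ closedBall x r ∩ closedBall y s := by
    apply subset_inter
    · exact closedBall_subset_closedBall (by rw [hρ]; linarith)
    · apply closedBall_subset_closedBall'
      rw [hρ]; linarith
  have hinter : (2 * ρ) ^ d ≤ ∑ i, m i := by
    rw [hsm, ← vol_closedBall_real x hρ0.le]
    exact ENNReal.toReal_mono hfm (measure_mono hsub)
  -- termwise
  have hma : ∀ i, m i ≤ a i := fun i => by
    apply ENNReal.toReal_mono (ne_top_of_le_ne_top hfx (measure_mono inter_subset_left))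
    exact measure_mono (inter_subset_inter_left _ inter_subset_left)
  have hmb : ∀ i, m i ≤ b i := fun i => by
    apply ENNReal.toReal_mono (ne_top_of_le_ne_top hfy (measure_mono inter_subset_left))
    exact measure_mono (inter_subset_inter_left _ inter_subset_right)
  have hb0 : ∀ i, 0 ≤ b i := fun i => ENNReal.toReal_nonneg
  have hab : ∀ i, |a i - b i| ≤ (a i - m i) + (b i - m i) := fun i => by
    rw [abs_le]; constructor <;> linarith [hma i, hmb i]
  have hsum_ab : ∑ i, |a i - b i| ≤ (Vx - (2 * ρ) ^ d) + (Vy - (2 * ρ) ^ d) := by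
    calc ∑ i, |a i - b i| ≤ ∑ i, ((a i - m i) + (b i - m i)) :=
          Finset.sum_le_sum fun i _ => hab i
      _ = (∑ i, a i - ∑ i, m i) + (∑ i, b i - ∑ i, m i) := by
          rw [Finset.sum_add_distrib, Finset.sum_sub_distrib, Finset.sum_sub_distrib]
      _ ≤ _ := by rw [hsa, hsb]; linarith
  have hV : |Vx - Vy| ≤ ∑ i, |a i - b i| := by
    rw [← hsa, ← hsb, ← Finset.sum_sub_distrib]
    exact Finset.abs_sum_le_sum_abs _ _
  have hterm : ∀ i, |a i / Vx - b i / Vy| ≤ |a i - b i| / Vx + b i * (|Vx - Vy| / (Vx * Vy)) := by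
    intro i
    have h1 : a i / Vx - b i / Vy = (a i - b i) / Vx + b i * ((Vy - Vx) / (Vx * Vy)) := by
      field_simp
      ring
    rw [h1]
    refine (abs_add_le _ _).trans ?_
    rw [abs_div, abs_of_pos hVx0, abs_mul, abs_of_nonneg (hb0 i), abs_div,
      abs_of_pos (mul_pos hVx0 hVy0), abs_sub_comm Vy Vx]
  have hsum1 : ∑ i, |a i / Vx - b i / Vy| ≤ 2 * (∑ i, |a i - b i|) / Vx := by
    calc ∑ i, |a i / Vx - b i / Vy|
        ≤ ∑ i, (|a i - b i| / Vx + b i * (|Vx - Vy| / (Vx * Vy))) :=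
          Finset.sum_le_sum fun i _ => hterm i
      _ = (∑ i, |a i - b i|) / Vx + Vy * (|Vx - Vy| / (Vx * Vy)) := by
          rw [Finset.sum_add_distrib, ← Finset.sum_div, ← Finset.sum_mul, hsb]
      _ = (∑ i, |a i - b i|) / Vx + |Vx - Vy| / Vx := by
          congr 1
          field_simp
      _ ≤ (∑ i, |a i - b i|) / Vx + (∑ i, |a i - b i|) / Vx := by
          gcongr
      _ = 2 * (∑ i, |a i - b i|) / Vx := by ring
  refine hsum1.trans ?_
  apply final_real d hr hs hδ0 hd hsr hsr2
  exact hsum_ab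

/-- Voronoi weights -/
noncomputable def wt {d n : ℕ} (c : Fin n → (Fin d → ℝ)) (x : Fin d → ℝ) (r : ℝ)
    (i : Fin n) : ℝ :=
  (volume (closedBall x r ∩ cell c i)).toReal / (2 * r) ^ d

theorem wt_nonneg {d n : ℕ} (c : Fin n → (Fin d → ℝ)) (x : Fin d → ℝ) {r : ℝ} (hr : 0 < r)
    (i : Fin n) : 0 ≤ wt c x r i := by
  unfold wt
  positivity

theorem sum_wt {d n : ℕ} (c : Fin n → (Fin d → ℝ)) (hn : 0 < n) (x : Fin d → ℝ) {r : ℝ}
    (hr : 0 < r) : ∑ i, wt c x r i = 1 := by
  unfold wt
  rw [← Finset.sum_div, sum_real_cell c hn _ measurableSet_closedBall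
    measure_closedBall_lt_top.ne, vol_closedBall_real x hr.le]
  exact div_self (by positivity)

theorem dist_of_wt {d n : ℕ} (c : Fin n → (Fin d → ℝ)) (x : Fin d → ℝ) {r : ℝ}
    (i j : Fin n) (h : wt c x r i ≠ 0) : dist x (c i) ≤ dist x (c j) + 2 * r := by
  have h1 : (closedBall x r ∩ cell c i).Nonempty := by
    by_contra hne
    rw [Set.not_nonempty_iff_eq_empty] at hne
    apply h
    unfold wt
    rw [hne]
    simp
  obtain ⟨z, hz1, hz2⟩ := h1
  have h2 := hz2.1 j
  have h3 : dist z x ≤ r := hz1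
  have h4 : dist x (c i) ≤ dist x z + dist z (c i) := dist_triangle _ _ _
  have h5 : dist z (c j) ≤ dist z x + dist x (c j) := dist_triangle _ _ _
  rw [dist_comm x z] at h4
  linarith

theorem lipExt_core (d : ℕ) (E : Type u) [NormedAddCommGroup E] [NormedSpace ℝ E]
    (S : Finset (Fin d → ℝ)) (hS : S.Nonempty) (F : (Fin d → ℝ) → E) (K : ℝ) (hK : 0 ≤ K)
    (hF : ∀ s ∈ S, ∀ t ∈ S, ‖F s - F t‖ ≤ K * dist s t) :
    ∃ H : (Fin d → ℝ) → E, (∀ s ∈ S, H s = F s) ∧
      ∀ x y, ‖H x - H y‖ ≤ (37 + 72 * d * 2 ^ d) * K * dist x y := by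
  classical
  -- enumeration
  set n := S.card with hn
  have hn0 : 0 < n := Finset.card_pos.mpr hS
  let e : Fin n ≃ S := S.equivFin.symm
  let c : Fin n → (Fin d → ℝ) := fun i => (e i : Fin d → ℝ)
  have hcS : ∀ i, c i ∈ S := fun i => (e i).2
  -- distance to S
  have hne : Nonempty (Fin n) := ⟨⟨0, hn0⟩⟩
  have hmin : ∀ x : Fin d → ℝ, ∃ i, ∀ j, dist x (c i) ≤ dist x (c j) := fun x =>
    Finite.exists_min fun i => dist x (c i)
  choose q hq using hmin
  let D : (Fin d → ℝ) → ℝ := fun x => dist x (c (q x))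
  have hD0 : ∀ x, 0 ≤ D x := fun x => dist_nonneg
  have hDS : ∀ x, x ∉ S → 0 < D x := fun x hx => by
    rcases (hD0 x).lt_or_eq with h | h
    · exact h
    · exfalso
      apply hx
      have : x = c (q x) := dist_eq_zero.mp h.symm
      rw [this]
      exact hcS _
  have hDle : ∀ x, ∀ s ∈ S, D x ≤ dist x s := fun x s hs => by
    have h1 := hq x (e.symm ⟨s, hs⟩)
    simpa [D, c] using h1
  have hDlip : ∀ x y, D x ≤ D y + dist x y := fun x y => by
    have h1 := hDle x (c (q y)) (hcS _)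
    have h2 := dist_triangle x y (c (q y))
    show D x ≤ dist y (c (q y)) + dist x y
    linarith
  let H : (Fin d → ℝ) → E := fun x =>
    if x ∈ S then F x else ∑ i, wt c x (D x / 2) i • F (c i)
  have hHS : ∀ s ∈ S, H s = F s := fun s hs => by simp [H, hs]
  have hHn : ∀ x, x ∉ S → H x = ∑ i, wt c x (D x / 2) i • F (c i) := fun x hx => by
    simp [H, hx]
  have hrep : ∀ x, x ∉ S → ∀ v : E, H x - v = ∑ i, wt c x (D x / 2) i • (F (c i) - v) := by
    intro x hx v
    have h1 : ∑ i, wt c x (D x / 2) i • v = v := by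
      rw [← Finset.sum_smul, sum_wt c hn0 x (half_pos (hDS x hx)), one_smul]
    simp only [smul_sub, Finset.sum_sub_distrib]
    rw [h1, hHn x hx]
  have hsupp : ∀ x, ∀ i, wt c x (D x / 2) i ≠ 0 → dist x (c i) ≤ 2 * D x := by
    intro x i hi
    have h1 := dist_of_wt c x i (q x) hi
    have h2 : dist x (c (q x)) = D x := rfl
    linarith
  -- near S
  have hnear : ∀ x, x ∉ S → ∀ s ∈ S, ‖H x - F s‖ ≤ K * (2 * D x + dist x s) := by
    intro x hx s hs
    rw [hrep x hx (F s)]
    refine (norm_sum_le _ _).trans ?_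
    have hw : ∑ i, wt c x (D x / 2) i * (K * (2 * D x + dist x s))
        = K * (2 * D x + dist x s) := by
      rw [← Finset.sum_mul, sum_wt c hn0 x (half_pos (hDS x hx)), one_mul]
    rw [← hw]
    apply Finset.sum_le_sum
    intro i _
    have hw0 := wt_nonneg c x (half_pos (hDS x hx)) i
    rw [norm_smul, Real.norm_of_nonneg hw0]
    by_cases h0 : wt c x (D x / 2) i = 0
    · rw [h0]; simp
    · apply mul_le_mul_of_nonneg_left _ hw0
      refine (hF _ (hcS i) s hs).trans ?_
      apply mul_le_mul_of_nonneg_left _ hK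
      have h1 := hsupp x i h0
      have h2 := dist_triangle (c i) x s
      rw [dist_comm (c i) x] at h2
      linarith
  have hdn : (0 : ℝ) ≤ 72 * d * 2 ^ d := by positivity
  -- one point in S
  have case1 : ∀ x ∈ S, ∀ y, y ∉ S → ‖H x - H y‖ ≤ (37 + 72 * d * 2 ^ d) * K * dist x y := by
    intro x hx y hy
    rw [hHS x hx, norm_sub_rev]
    refine (hnear y hy x hx).trans ?_
    have h1 := hDle y x hx
    rw [dist_comm y x] at h1 ⊢
    have h2 : K * (2 * D y + dist x y) ≤ K * (3 * dist x y) :=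
      mul_le_mul_of_nonneg_left (by linarith) hK
    have h3 : 0 ≤ K * dist x y := mul_nonneg hK dist_nonneg
    have h4 : 0 ≤ 72 * (d : ℝ) * 2 ^ d * (K * dist x y) := mul_nonneg hdn h3
    linarith
  -- both far
  have case2 : ∀ x, x ∉ S → ∀ y, y ∉ S → D x ≤ 4 * dist x y →
      ‖H x - H y‖ ≤ (37 + 72 * d * 2 ^ d) * K * dist x y := by
    intro x hx y hy hxy
    have h1 := hnear x hx (c (q x)) (hcS _)
    have h2 := hnear y hy (c (q y)) (hcS _)
    have h3 := hF (c (q x)) (hcS _) (c (q y)) (hcS _)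
    have h4 : dist x (c (q x)) = D x := rfl
    have h5 : dist y (c (q y)) = D y := rfl
    rw [h4] at h1
    rw [h5] at h2
    have h6 : dist (c (q x)) (c (q y)) ≤ D x + dist x y + D y := by
      have t1 := dist_triangle (c (q x)) x (c (q y))
      have t2 := dist_triangle x y (c (q y))
      rw [dist_comm (c (q x)) x] at t1
      linarith
    have h7 : ‖H x - H y‖ ≤ ‖H x - F (c (q x))‖ + ‖F (c (q x)) - F (c (q y))‖
        + ‖H y - F (c (q y))‖ := by
      have e1 : H x - H y = (H x - F (c (q x))) + (F (c (q x)) - F (c (q y)))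
          - (H y - F (c (q y))) := by abel
      rw [e1]
      exact (norm_sub_le _ _).trans (add_le_add_left (norm_add_le _ _) _)
    have h8 : D y ≤ 5 * dist x y := by
      have := hDlip y x
      rw [dist_comm y x] at this
      linarith
    have h9 : K * (2 * D x + D x) ≤ K * (12 * dist x y) :=
      mul_le_mul_of_nonneg_left (by linarith) hK
    have h10 : K * (2 * D y + D y) ≤ K * (15 * dist x y) :=
      mul_le_mul_of_nonneg_left (by linarith) hK
    have h11 : K * dist (c (q x)) (c (q y)) ≤ K * (10 * dist x y) :=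
      mul_le_mul_of_nonneg_left (by linarith) hK
    have h12 : 0 ≤ K * dist x y := mul_nonneg hK dist_nonneg
    have h13 : 0 ≤ 72 * (d : ℝ) * 2 ^ d * (K * dist x y) := mul_nonneg hdn h12
    linarith
  -- both near each other
  have case3 : ∀ x, x ∉ S → ∀ y, y ∉ S → 4 * dist x y ≤ D x →
      ‖H x - H y‖ ≤ (37 + 72 * d * 2 ^ d) * K * dist x y := by
    intro x hx y hy hxy
    have hDx := hDS x hx
    have hDy := hDS y hy
    have habs : |D x / 2 - D y / 2| ≤ dist x y / 2 := by
      have t1 := hDlip x y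
      have t2 := hDlip y x
      rw [dist_comm y x] at t2
      rw [abs_le]
      constructor <;> linarith
    have htv := tv_bound c hn0 x y (D x / 2) (D y / 2) (half_pos hDx) (half_pos hDy) habs
      (by linarith)
    have hdiff : H x - H y = ∑ i, (wt c x (D x / 2) i - wt c y (D y / 2) i)
        • (F (c i) - F (c (q x))) := by
      have e1 := hrep x hx (F (c (q x)))
      have e2 := hrep y hy (F (c (q x)))
      simp only [sub_smul, Finset.sum_sub_distrib]
      rw [← e1, ← e2]
      abel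
    rw [hdiff]
    refine (norm_sum_le _ _).trans ?_
    have hterm : ∀ i, ‖(wt c x (D x / 2) i - wt c y (D y / 2) i) • (F (c i) - F (c (q x)))‖
        ≤ |wt c x (D x / 2) i - wt c y (D y / 2) i| * (K * (4 * D x)) := by
      intro i
      rw [norm_smul, Real.norm_eq_abs]
      by_cases h0 : wt c x (D x / 2) i = 0 ∧ wt c y (D y / 2) i = 0
      · rw [h0.1, h0.2]; simp
      · apply mul_le_mul_of_nonneg_left _ (abs_nonneg _)
        refine (hF _ (hcS i) _ (hcS _)).trans ?_
        apply mul_le_mul_of_nonneg_left _ hK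
        have hsx : dist x (c (q x)) = D x := rfl
        rcases not_and_or.mp h0 with h | h
        · have h1 := hsupp x i h
          have h2 := dist_triangle (c i) x (c (q x))
          rw [dist_comm (c i) x] at h2
          linarith
        · have h1 := hsupp y i h
          have h2 := dist_triangle (c i) y (c (q x))
          have h3 := dist_triangle y x (c (q x))
          rw [dist_comm (c i) y] at h2
          rw [dist_comm y x] at h3
          have h4 := hDlip y x
          rw [dist_comm y x] at h4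
          linarith
    refine (Finset.sum_le_sum fun i _ => hterm i).trans ?_
    rw [← Finset.sum_mul]
    have hS1 : ∑ i, |wt c x (D x / 2) i - wt c y (D y / 2) i| ≤
        (9 * d * 2 ^ d) * (dist x y / (D x / 2)) := htv
    have hK4 : 0 ≤ K * (4 * D x) := by positivity
    refine (mul_le_mul_of_nonneg_right hS1 hK4).trans ?_
    have e3 : (9 * (d : ℝ) * 2 ^ d) * (dist x y / (D x / 2)) * (K * (4 * D x))
        = 72 * d * 2 ^ d * (K * dist x y) := by
      field_simp
      ring
    rw [e3]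
    have h12 : 0 ≤ K * dist x y := mul_nonneg hK dist_nonneg
    linarith
  refine ⟨H, hHS, ?_⟩
  intro x y
  by_cases hx : x ∈ S
  · by_cases hy : y ∈ S
    · rw [hHS x hx, hHS y hy]
      refine (hF x hx y hy).trans ?_
      have h3 : 0 ≤ K * dist x y := mul_nonneg hK dist_nonneg
      have h4 : 0 ≤ 72 * (d : ℝ) * 2 ^ d * (K * dist x y) := mul_nonneg hdn h3
      linarith
    · exact case1 x hx y hy
  · by_cases hy : y ∈ S
    · rw [norm_sub_rev, dist_comm]
      exact case1 y hy x hx
    · rcases le_total (D x) (4 * dist x y) with h | h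
      · exact case2 x hx y hy h
      · exact case3 x hx y hy h

/-- **Lipschitz extension** from finite subsets of `ℝ^d` (with the `ℓ₁` distance) into an
arbitrary real normed space, with a constant depending on `d` only. -/
theorem exists_lipExt (d : ℕ) : ∃ C : ℝ, 0 < C ∧ ∀ (E : Type u) [NormedAddCommGroup E]
    [NormedSpace ℝ E] (S : Finset (Fin d → ℝ)) (F : (Fin d → ℝ) → E) (L : ℝ), 0 ≤ L →
    S.Nonempty → (∀ s ∈ S, ∀ t ∈ S, ‖F s - F t‖ ≤ L * ∑ i, |s i - t i|) →
    ∃ H : (Fin d → ℝ) → E, (∀ s ∈ S, H s = F s) ∧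
      ∀ x y, ‖H x - H y‖ ≤ C * L * ∑ i, |x i - y i| := by
  refine ⟨(37 + 72 * d * 2 ^ d) * (d + 1), by positivity, ?_⟩
  intro E _ _ S F L hL hS hF
  have hsum : ∀ s t : Fin d → ℝ, ∑ i, |s i - t i| ≤ d * dist s t := by
    intro s t
    calc ∑ i, |s i - t i| ≤ ∑ _i : Fin d, dist s t := by
          apply Finset.sum_le_sum
          intro i _
          have := dist_le_pi_dist s t i
          rwa [Real.dist_eq] at this
      _ = d * dist s t := by simp
  have hsup : ∀ s t : Fin d → ℝ, dist s t ≤ ∑ i, |s i - t i| := by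
    intro s t
    rw [dist_pi_le_iff (Finset.sum_nonneg fun i _ => abs_nonneg _)]
    intro i
    rw [Real.dist_eq]
    exact Finset.single_le_sum (f := fun i => |s i - t i|) (fun i _ => abs_nonneg _)
      (Finset.mem_univ i)
  obtain ⟨H, h1, h2⟩ := lipExt_core d E S hS F (L * d) (by positivity) (by
    intro s hs t ht
    refine (hF s hs t ht).trans ?_
    have := mul_le_mul_of_nonneg_left (hsum s t) hL
    linarith)
  refine ⟨H, h1, ?_⟩
  intro x y
  refine (h2 x y).trans ?_
  have h3 := hsup x y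
  have h4 : 0 ≤ ∑ i, |x i - y i| := Finset.sum_nonneg fun i _ => abs_nonneg _
  have h5 : (37 + 72 * (d : ℝ) * 2 ^ d) * (L * d) * dist x y ≤
      (37 + 72 * (d : ℝ) * 2 ^ d) * (L * d) * ∑ i, |x i - y i| :=
    mul_le_mul_of_nonneg_left h3 (by positivity)
  refine h5.trans ?_
  have h6 : 0 ≤ (37 + 72 * (d : ℝ) * 2 ^ d) * L * ∑ i, |x i - y i| := by positivity
  linarith

end Vale.Agent.P235.H929
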